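import Vale.Agent.P338.Counting

namespace Vale.Agent.P338

open OneTape

/-- Transition function of a machine with one tape, in one-tape form. -/
def delta1 (M : Machine 1) : M.State → M.Sym → Option (M.State × M.Sym × Move) :=
  fun q a => (M.trans q (fun _ => a)).map fun r => (r.1, r.2.1 0, r.2.2 0)

/-- Configuration of a machine with one tape, in one-tape form. -/
def toConf {M : Machine 1} (c : Cfg M) : Conf M.State M.Sym := ⟨c.state, c.head 0, c.tape 0⟩

theorem step_toConf (M : Machine 1) (c : Cfg M) :
    (M.step c).map toConf = step (delta1 M) (toConf c) := by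
  unfold Machine.step step delta1 toConf
  have h : (fun i => c.tape i (c.head i)) = fun _ : Fin 1 => c.tape 0 (c.head 0) := by
    funext i
    rw [Subsingleton.elim i 0]
  rw [h]
  rcases M.trans c.state (fun _ => c.tape 0 (c.head 0)) with _ | r
  · rfl
  · rfl

theorem run_toConf (M : Machine 1) : ∀ (t : ℕ) (c : Cfg M),
    (M.run t c).map toConf = run (delta1 M) t (toConf c) := by
  intro t
  induction t with
  | zero => intro c; rfl
  | succ t ih =>
    intro c
    have hs := step_toConf M c
    simp only [Machine.run, run]
    rcases hc : M.step c with _ | c'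
    · rw [hc] at hs
      simp only [Option.map_none] at hs
      rw [← hs]; rfl
    · rw [hc] at hs
      simp only [Option.map_some] at hs
      rw [← hs]
      simp only [Option.bind_some]
      exact ih c'

theorem haltsAt_unique {k : ℕ} (M : Machine k) : ∀ (t t' : ℕ) (c c1 c2 : Cfg M),
    M.HaltsAt c t c1 → M.HaltsAt c t' c2 → t = t' ∧ c1 = c2 := by
  intro t
  induction t with
  | zero =>
    intro t' c c1 c2 h1 h2
    obtain ⟨h1a, h1b⟩ := h1
    obtain ⟨h2a, h2b⟩ := h2
    simp only [Machine.run, Option.some.injEq] at h1a
    subst h1a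
    cases t' with
    | zero =>
      simp only [Machine.run, Option.some.injEq] at h2a
      exact ⟨rfl, h2a⟩
    | succ t' =>
      simp only [Machine.run, h1b, Option.bind_none] at h2a
      exact absurd h2a (by simp)
  | succ t ih =>
    intro t' c c1 c2 h1 h2
    obtain ⟨h1a, h1b⟩ := h1
    obtain ⟨h2a, h2b⟩ := h2
    simp only [Machine.run] at h1a
    obtain ⟨d, hd, hrun⟩ := Option.bind_eq_some_iff.mp h1a
    cases t' with
    | zero =>
      simp only [Machine.run, Option.some.injEq] at h2a
      subst h2a
      rw [h2b] at hd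
      exact absurd hd (by simp)
    | succ t' =>
      simp only [Machine.run, hd, Option.bind_some] at h2a
      obtain ⟨e1, e2⟩ := ih t' d c1 c2 ⟨hrun, h1b⟩ ⟨h2a, h2b⟩
      exact ⟨by omega, e2⟩

theorem time_eq {k : ℕ} (M : Machine k) {c c' : Cfg M} {t : ℕ} (h : M.HaltsAt c t c') :
    M.time c = t := by
  unfold Machine.time
  have hset : {t | ∃ c', M.HaltsAt c t c'} = {t} := by
    ext s
    simp only [Set.mem_ofPred_eq, Set.mem_singleton_iff]
    constructor
    · rintro ⟨c2, h2⟩
      exact (haltsAt_unique M s t c c2 c' h2 h).1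
    · rintro rfl
      exact ⟨c', h⟩
  rw [hset]
  exact csInf_singleton t

end Vale.Agent.P338
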