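import Vale.Agent.P338.Crossing

namespace Vale.Agent.P338.OneTape

open Vale.Agent.P338

variable {Q Γ : Type}

theorem list_eq_of_enc {L : ℕ} {l l' : List Q} (h : l.length < L) (h' : l'.length < L)
    (henc : (fun i : Fin L => l[(i : ℕ)]?) = (fun i : Fin L => l'[(i : ℕ)]?)) : l = l' := by
  apply List.ext_getElem?
  intro i
  by_cases hi : i < L
  · exact congrFun henc ⟨i, hi⟩
  · rw [List.getElem?_eq_none (by omega), List.getElem?_eq_none (by omega)]

/-- Abstract information-transfer bound for one-tape machines. -/
theorem exists_slow [Fintype Q] {W : Type} [Fintype W] [DecidableEq W]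
    (δ : Q → Γ → Option (Q × Γ × Move)) (d : Γ)
    (c : W → Conf Q Γ) (t : W → ℕ) (f : W → Conf Q Γ)
    (hrun : ∀ w, run δ (t w) (c w) = some (f w)) (hhalt : ∀ w, step δ (f w) = none)
    (B : Finset ℕ) (hB1 : ∀ b ∈ B, 1 ≤ b)
    (hinit : ∀ b ∈ B, ∀ w w' l, proj d b (c w) l = proj d b (c w') l)
    (hfin : ∀ b ∈ B, ∀ w w', mask d b (f w).τ = mask d b (f w').τ → w = w')
    (L : ℕ) (hL : B.card * (Fintype.card Q + 1) ^ L < Fintype.card W) :
    ∃ w, B.card * L ≤ t w := by
  classical
  by_contra hcon
  push Not at hcon
  set bad : ℕ → Finset W := fun b =>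
    Finset.univ.filter (fun w => (reentries δ b (t w) (c w)).length < L) with hbad
  have hbadcard : ∀ b ∈ B, (bad b).card ≤ (Fintype.card Q + 1) ^ L := by
    intro b hb
    have hcard : (Finset.univ : Finset (Fin L → Option Q)).card = (Fintype.card Q + 1) ^ L := by
      rw [Finset.card_univ, Fintype.card_fun, Fintype.card_option, Fintype.card_fin]
    rw [← hcard]
    apply Finset.card_le_card_of_injOn
      (fun w => fun i : Fin L => (reentries δ b (t w) (c w))[(i : ℕ)]?)
    · intro w _; exact Finset.mem_coe.mpr (Finset.mem_univ _)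
    · intro w hw w' hw' henc
      simp only [hbad, Finset.coe_filter, Finset.mem_univ, true_and, Set.mem_ofPred_eq] at hw hw'
      have hl := list_eq_of_enc hw hw' henc
      exact hfin b hb w w' (left_determined δ d b (hB1 b hb) (hrun w) (hhalt w) (hrun w')
        (hhalt w') (hinit b hb w w') hl)
  have hcover : (Finset.univ : Finset W) ⊆ B.biUnion bad := by
    intro w _
    have hsum := sum_reentries_le δ B (t w) (c w)
    have hlt := hcon w
    by_contra hw
    have hall : ∀ b ∈ B, L ≤ (reentries δ b (t w) (c w)).length := by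
      intro b hb
      by_contra hlen
      apply hw
      rw [Finset.mem_biUnion]
      exact ⟨b, hb, by simp only [hbad, Finset.mem_filter, Finset.mem_univ, true_and]; omega⟩
    have := Finset.card_nsmul_le_sum B _ L hall
    simp only [smul_eq_mul] at this
    omega
  have h1 : Fintype.card W ≤ B.card * (Fintype.card Q + 1) ^ L := by
    calc Fintype.card W = (Finset.univ : Finset W).card := Finset.card_univ.symm
      _ ≤ (B.biUnion bad).card := Finset.card_le_card hcover
      _ ≤ ∑ b ∈ B, (bad b).card := Finset.card_biUnion_le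
      _ ≤ ∑ _b ∈ B, (Fintype.card Q + 1) ^ L := Finset.sum_le_sum hbadcard
      _ = B.card * (Fintype.card Q + 1) ^ L := by simp
  omega

end Vale.Agent.P338.OneTape
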