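import Vale.Agent.P338.Defs

namespace Vale.Agent.P338.OneTape

open Vale.Agent.P338

variable {Q Γ : Type}

/-- Configuration of a one-tape machine. -/
structure Conf (Q Γ : Type) where
  q : Q
  h : ℕ
  τ : ℕ → Γ

/-- One step. -/
def step (δ : Q → Γ → Option (Q × Γ × Move)) (c : Conf Q Γ) : Option (Conf Q Γ) :=
  (δ c.q (c.τ c.h)).map fun r => ⟨r.1, r.2.2.apply c.h, Function.update c.τ c.h r.2.1⟩

/-- `t` steps. -/
def run (δ : Q → Γ → Option (Q × Γ × Move)) : ℕ → Conf Q Γ → Option (Conf Q Γ)
  | 0, c => some c
  | t + 1, c => (step δ c).bind (run δ t)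

/-- States in which the head re-enters the cells `< b` from the right, during `t` steps. -/
def reentries (δ : Q → Γ → Option (Q × Γ × Move)) (b : ℕ) : ℕ → Conf Q Γ → List Q
  | 0, _ => []
  | t + 1, c =>
    match step δ c with
    | none => []
    | some c' =>
      if b ≤ c.h ∧ c'.h < b then c'.q :: reentries δ b t c' else reentries δ b t c'

/-- Restriction of a tape to the cells `< b`. -/
def mask (d : Γ) (b : ℕ) (τ : ℕ → Γ) : ℕ → Γ := fun j => if j < b then τ j else d

/-- State of the left system. -/
abbrev LState (Q Γ : Type) := (Option (Q × ℕ) × (ℕ → Γ)) × List Q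

/-- The left system: deterministic given the list of re-entry states. -/
def leftStep (δ : Q → Γ → Option (Q × Γ × Move)) (b : ℕ) : LState Q Γ → Option (LState Q Γ)
  | ((some (q, h), τ), l) =>
      (δ q (τ h)).map fun r =>
        ((if r.2.2.apply h < b then some (r.1, r.2.2.apply h) else none,
          Function.update τ h r.2.1), l)
  | ((none, _), []) => none
  | ((none, τ), q :: l) => some ((some (q, b - 1), τ), l)

/-- Projection of a configuration to the left system. -/
def proj (d : Γ) (b : ℕ) (c : Conf Q Γ) (l : List Q) : LState Q Γ :=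
  ((if c.h < b then some (c.q, c.h) else none, mask d b c.τ), l)

theorem mask_update_lt (d : Γ) (b : ℕ) (τ : ℕ → Γ) (h : ℕ) (a : Γ) (hb : h < b) :
    mask d b (Function.update τ h a) = Function.update (mask d b τ) h a := by
  funext j
  unfold mask
  by_cases hj : j = h
  · subst hj; simp [hb]
  · simp [Function.update_of_ne hj]

theorem mask_update_ge (d : Γ) (b : ℕ) (τ : ℕ → Γ) (h : ℕ) (a : Γ) (hb : b ≤ h) :
    mask d b (Function.update τ h a) = mask d b τ := by
  funext j
  unfold mask
  by_cases hj : j < b
  · have : j ≠ h := by omega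
    simp [hj, Function.update_of_ne this]
  · simp [hj]

theorem apply_ge (m : Move) (h : ℕ) : h - 1 ≤ m.apply h := by
  cases m <;> simp [Move.apply] <;> omega

theorem apply_le (m : Move) (h : ℕ) : m.apply h ≤ h + 1 := by
  cases m <;> simp [Move.apply] <;> omega

theorem proj_step (δ : Q → Γ → Option (Q × Γ × Move)) (d : Γ) (b : ℕ) (hb : 1 ≤ b)
    (c c' : Conf Q Γ) (hs : step δ c = some c') (l' : List Q) :
    proj d b c (if b ≤ c.h ∧ c'.h < b then c'.q :: l' else l') = proj d b c' l' ∨
    leftStep δ b (proj d b c (if b ≤ c.h ∧ c'.h < b then c'.q :: l' else l'))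
      = some (proj d b c' l') := by
  unfold step at hs
  obtain ⟨r, hr, hc'⟩ := Option.map_eq_some_iff.mp hs
  subst hc'
  by_cases hlt : c.h < b
  · right
    have hnot : ¬ (b ≤ c.h ∧ r.2.2.apply c.h < b) := by omega
    simp only [hnot, if_false]
    unfold proj
    simp only [hlt, if_true]
    unfold leftStep
    have hm : mask d b c.τ c.h = c.τ c.h := by simp [mask, hlt]
    simp only [hm, hr, Option.map_some, mask_update_lt d b c.τ c.h r.2.1 hlt]
  · have hge : b ≤ c.h := not_lt.mp hlt
    by_cases hre : r.2.2.apply c.h < b
    · right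
      have hcond : b ≤ c.h ∧ r.2.2.apply c.h < b := ⟨hge, hre⟩
      simp only [hcond, and_self, if_true]
      unfold proj
      simp only [hlt, if_false, hre, if_true]
      unfold leftStep
      have h1 := apply_ge r.2.2 c.h
      have h2 : r.2.2.apply c.h = b - 1 := by omega
      simp only [h2, mask_update_ge d b c.τ c.h r.2.1 hge]
    · left
      have hnot : ¬ (b ≤ c.h ∧ r.2.2.apply c.h < b) := by tauto
      simp only [hnot, if_false]
      unfold proj
      simp only [hlt, if_false, hre, mask_update_ge d b c.τ c.h r.2.1 hge]

theorem proj_terminal (δ : Q → Γ → Option (Q × Γ × Move)) (d : Γ) (b : ℕ)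
    (c : Conf Q Γ) (hs : step δ c = none) : leftStep δ b (proj d b c []) = none := by
  unfold step at hs
  have hr := Option.map_eq_none_iff.mp hs
  unfold proj
  by_cases hlt : c.h < b
  · simp only [hlt, if_true]
    unfold leftStep
    have hm : mask d b c.τ c.h = c.τ c.h := by simp [mask, hlt]
    simp only [hm, hr, Option.map_none]
  · simp only [hlt, if_false]
    rfl

/-- Reachability in the left system. -/
def LReach (δ : Q → Γ → Option (Q × Γ × Move)) (b : ℕ) : LState Q Γ → LState Q Γ → Prop :=
  Relation.ReflTransGen (fun s s' => leftStep δ b s = some s')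

theorem proj_run (δ : Q → Γ → Option (Q × Γ × Move)) (d : Γ) (b : ℕ) (hb : 1 ≤ b) :
    ∀ (t : ℕ) (c cT : Conf Q Γ), run δ t c = some cT →
      LReach δ b (proj d b c (reentries δ b t c)) (proj d b cT []) := by
  intro t
  induction t with
  | zero =>
    intro c cT h
    simp only [run, Option.some.injEq] at h
    subst h
    exact Relation.ReflTransGen.refl
  | succ t ih =>
    intro c cT h
    simp only [run] at h
    obtain ⟨c', hc', hrun⟩ := Option.bind_eq_some_iff.mp h
    have ih' := ih c' cT hrun
    have hre : reentries δ b (t + 1) c =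
        if b ≤ c.h ∧ c'.h < b then c'.q :: reentries δ b t c' else reentries δ b t c' := by
      simp only [reentries, hc']
    rw [hre]
    rcases proj_step δ d b hb c c' hc' (reentries δ b t c') with h1 | h1
    · rw [h1]; exact ih'
    · exact Relation.ReflTransGen.head h1 ih'

theorem terminal_unique {α : Type} (f : α → Option α) {x y y' : α}
    (h : Relation.ReflTransGen (fun a b => f a = some b) x y)
    (h' : Relation.ReflTransGen (fun a b => f a = some b) x y')
    (hy : f y = none) (hy' : f y' = none) : y = y' := by
  induction h using Relation.ReflTransGen.head_induction_on with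
  | refl =>
    rcases Relation.ReflTransGen.cases_head h' with h1 | ⟨z, hz, _⟩
    · exact h1
    · rw [hy] at hz; exact absurd hz (by simp)
  | head hab _ ih =>
    rcases Relation.ReflTransGen.cases_head h' with h1 | ⟨z, hz, hrest⟩
    · subst h1; rw [hy'] at hab; exact absurd hab (by simp)
    · rw [hab] at hz
      have := Option.some.inj hz
      subst this
      exact ih hrest

/-- The final content of the cells `< b` is determined by the initial left view and the list of
re-entry states. -/
theorem left_determined (δ : Q → Γ → Option (Q × Γ × Move)) (d : Γ) (b : ℕ) (hb : 1 ≤ b)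
    {c c' cT cT' : Conf Q Γ} {t t' : ℕ}
    (h1 : run δ t c = some cT) (h2 : step δ cT = none)
    (h1' : run δ t' c' = some cT') (h2' : step δ cT' = none)
    (hproj : ∀ l, proj d b c l = proj d b c' l)
    (hl : reentries δ b t c = reentries δ b t' c') :
    mask d b cT.τ = mask d b cT'.τ := by
  have r1 := proj_run δ d b hb t c cT h1
  have r2 := proj_run δ d b hb t' c' cT' h1'
  rw [hl, hproj] at r1
  have := terminal_unique (leftStep δ b) r1 r2 (proj_terminal δ d b cT h2)
    (proj_terminal δ d b cT' h2')
  unfold proj at this
  exact (Prod.ext_iff.mp (Prod.ext_iff.mp this).1).2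

/-- Each step is a re-entry for at most one boundary. -/
theorem sum_reentries_le (δ : Q → Γ → Option (Q × Γ × Move)) (B : Finset ℕ) :
    ∀ (t : ℕ) (c : Conf Q Γ), ∑ b ∈ B, (reentries δ b t c).length ≤ t := by
  intro t
  induction t with
  | zero => intro c; simp [reentries]
  | succ t ih =>
    intro c
    rcases hs : step δ c with _ | c'
    · simp [reentries, hs]
    · have hlen : ∀ b ∈ B, (reentries δ b (t + 1) c).length =
          (if b ≤ c.h ∧ c'.h < b then 1 else 0) + (reentries δ b t c').length := by
        intro b _
        simp only [reentries, hs]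
        split_ifs <;> simp [add_comm]
      rw [Finset.sum_congr rfl hlen, Finset.sum_add_distrib]
      have h1 : ∑ b ∈ B, (if b ≤ c.h ∧ c'.h < b then 1 else 0) ≤ 1 := by
        rw [← Finset.card_filter]
        have hsub : B.filter (fun b => b ≤ c.h ∧ c'.h < b) ⊆ {c.h} := by
          intro b hb
          simp only [Finset.mem_filter] at hb
          unfold step at hs
          obtain ⟨r, _, hc'⟩ := Option.map_eq_some_iff.mp hs
          subst hc'
          have := apply_ge r.2.2 c.h
          simp only at hb
          simp only [Finset.mem_singleton]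
          omega
        calc _ ≤ ({c.h} : Finset ℕ).card := Finset.card_le_card hsub
          _ = 1 := Finset.card_singleton _
      have h2 := ih c'
      omega

end Vale.Agent.P338.OneTape
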