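import Mathlib

namespace Vale.Agent.P338

/-- Head moves on a one-way infinite tape. -/
inductive Move
  | left
  | stay
  | right

/-- Effect of a move on a head position; a left move on the leftmost cell `0` stays there. -/
def Move.apply : Move → ℕ → ℕ
  | Move.left, h => h - 1
  | Move.stay, h => h
  | Move.right, h => h + 1

/-- A deterministic Turing machine with `k` one-way infinite tapes: finite state set, finite tape
alphabet containing a blank, the two bits and the separator `#` (four distinct symbols), a
designated output tape, and a transition function; `trans q a = none` means that the machine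
halts in state `q` when reading the symbols `a`. -/
structure Machine (k : ℕ) where
  State : Type
  Sym : Type
  [stateFin : Fintype State]
  [symFin : Fintype Sym]
  start : State
  blank : Sym
  bit : Bool → Sym
  sep : Sym
  bit_injective : Function.Injective bit
  bit_ne_blank : ∀ b, bit b ≠ blank
  bit_ne_sep : ∀ b, bit b ≠ sep
  sep_ne_blank : sep ≠ blank
  out : Fin k
  trans : State → (Fin k → Sym) → Option (State × (Fin k → Sym) × (Fin k → Move))

variable {k : ℕ}

/-- A configuration: state, tape contents (cell `0` is the leftmost cell) and head positions. -/
structure Cfg (M : Machine k) where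
  state : M.State
  tape : Fin k → ℕ → M.Sym
  head : Fin k → ℕ

/-- One step: every head writes a symbol and then moves. -/
def Machine.step (M : Machine k) (c : Cfg M) : Option (Cfg M) :=
  (M.trans c.state (fun i => c.tape i (c.head i))).map fun r =>
    { state := r.1
      tape := fun i => Function.update (c.tape i) (c.head i) (r.2.1 i)
      head := fun i => (r.2.2 i).apply (c.head i) }

/-- The configuration after exactly `t` steps, if the machine has not halted earlier. -/
def Machine.run (M : Machine k) : ℕ → Cfg M → Option (Cfg M)
  | 0, c => some c
  | t + 1, c => (M.step c).bind (M.run t)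

/-- Started in `c`, the machine halts after exactly `t` steps in configuration `c'`. -/
def Machine.HaltsAt (M : Machine k) (c : Cfg M) (t : ℕ) (c' : Cfg M) : Prop :=
  M.run t c = some c' ∧ M.step c' = none

/-- The tape that holds the word `w` from the leftmost cell on and blanks elsewhere. -/
def Machine.word (M : Machine k) (w : List M.Sym) : ℕ → M.Sym := fun j => w.getD j M.blank

/-- Initial configuration: `w` on the first tape, other tapes blank, heads on the leftmost cell. -/
def Machine.init [NeZero k] (M : Machine k) (w : List M.Sym) : Cfg M :=
  { state := M.start
    tape := fun i => if i = 0 then M.word w else fun _ => M.blank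
    head := fun _ => 0 }

/-- The input word `x#y`. -/
def Machine.input (M : Machine k) {n : ℕ} (x y : Fin n → Bool) : List M.Sym :=
  (List.ofFn fun i => M.bit (x i)) ++ M.sep :: (List.ofFn fun i => M.bit (y i))

/-- The value of a binary string, leftmost bit most significant. -/
def val {n : ℕ} (x : Fin n → Bool) : ℕ := ∑ i : Fin n, (x i).toNat * 2 ^ (n - 1 - (i : ℕ))

/-- The binary representation of `z`, padded on the left to length `m`. -/
def bin (m z : ℕ) : Fin m → Bool := fun j => z.testBit (m - 1 - (j : ℕ))

/-- The machine multiplies. -/
def Machine.Multiplies [NeZero k] (M : Machine k) : Prop :=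
  ∀ n : ℕ, 1 ≤ n → ∀ x y : Fin n → Bool, ∃ (t : ℕ) (c' : Cfg M),
    M.HaltsAt (M.init (M.input x y)) t c' ∧
    c'.tape M.out = M.word (List.ofFn fun j => M.bit (bin (2 * n) (val x * val y) j))

/-- The number of steps until halting when started in `c`. -/
noncomputable def Machine.time (M : Machine k) (c : Cfg M) : ℕ :=
  sInf {t | ∃ c', M.HaltsAt c t c'}

/-- `T_A(n)`: worst-case running time over the inputs `x#y` with `x, y` of length `n`. -/
noncomputable def Machine.worstTime [NeZero k] (M : Machine k) (n : ℕ) : ℕ :=
  Finset.univ.sup fun p : (Fin n → Bool) × (Fin n → Bool) => M.time (M.init (M.input p.1 p.2))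

end Vale.Agent.P338
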