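import Vale.Agent.P338.Defs

namespace Vale.Agent.P338

variable {k : ℕ}

/-- The word that describes a binary `n × n` matrix: row after row, each row followed by `#`. -/
def Machine.matWord (M : Machine k) {n : ℕ} (X : Fin n → Fin n → Bool) : List M.Sym :=
  (List.ofFn fun i => (List.ofFn fun j => M.bit (X i j)) ++ [M.sep]).flatten

/-- The machine transposes binary `n × n` matrices: started on the word of `X` it halts with the
word of the transposed matrix on its output tape. -/
def Machine.TransposesAt [NeZero k] (M : Machine k) (n : ℕ) : Prop :=
  ∀ X : Fin n → Fin n → Bool, ∃ (t : ℕ) (c' : Cfg M),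
    M.HaltsAt (M.init (M.matWord X)) t c' ∧
    c'.tape M.out = M.word (M.matWord fun i j => X j i)

/-- Worst-case running time over all binary `n × n` matrices. -/
noncomputable def Machine.transTime [NeZero k] (M : Machine k) (n : ℕ) : ℕ :=
  Finset.univ.sup fun X : Fin n → Fin n → Bool => M.time (M.init (M.matWord X))

end Vale.Agent.P338
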