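import Vale.Agent.P338.Main

namespace Vale.Agent.P338

attribute [local instance] Machine.stateFin

theorem four_mul_add_two_lt : ∀ m : ℕ, 5 ≤ m → 4 * m + 2 < 2 ^ m := by
  intro m hm
  induction m, hm using Nat.le_induction with
  | base => norm_num
  | succ m hm ih => rw [pow_succ]; omega

theorem one_tape_nat (M : Machine 1) (hM : M.Multiplies) :
    ∃ κ : ℕ, 1 ≤ κ ∧ ∀ n : ℕ, 18 ≤ n → 8 * κ ≤ n → n * n ≤ 16 * κ * M.worstTime n := by
  set s := Fintype.card M.State + 1 with hs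
  refine ⟨s, by omega, ?_⟩
  intro n hn18 hn8
  set h := n / 2 with hh
  set L := h / (2 * s) with hLdef
  set P := s * L with hP
  have hspos : 0 < 2 * s := by omega
  have h1 : 2 * P ≤ h := by
    have := Nat.mul_div_le h (2 * s)
    rw [← hLdef] at this
    calc 2 * P = 2 * s * L := by rw [hP]; ring
      _ ≤ h := this
  have h2 : h < 2 * P + 2 * s := by
    have := Nat.lt_mul_div_succ h hspos
    rw [← hLdef] at this
    calc h < 2 * s * (L + 1) := this
      _ = 2 * P + 2 * s := by rw [hP]; ring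
  have h3 : n ≤ 2 * h + 1 := by omega
  have h4 : 2 * h ≤ n := by omega
  have hsle : s ≤ 2 ^ s := Nat.lt_two_pow_self.le
  have hcond : (n + 1 - h) * s ^ L < 2 ^ h := by
    set m := h - P with hm
    have hm5 : 5 ≤ m := by omega
    have hlt := four_mul_add_two_lt m hm5
    have hpow : s ^ L ≤ 2 ^ P := by
      calc s ^ L ≤ (2 ^ s) ^ L := Nat.pow_le_pow_left hsle L
        _ = 2 ^ P := by rw [hP, pow_mul]
    have hsplit : 2 ^ h = 2 ^ m * 2 ^ P := by
      rw [← pow_add]; congr 1; omega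
    rw [hsplit]
    calc (n + 1 - h) * s ^ L ≤ (n + 1 - h) * 2 ^ P := Nat.mul_le_mul_left _ hpow
      _ < 2 ^ m * 2 ^ P := by
        apply Nat.mul_lt_mul_of_pos_right _ (by positivity)
        omega
  have hT := worstTime_ge M hM n h L (by omega) (by omega) hcond
  have h5 : n ≤ 2 * (n + 1 - h) := by omega
  have h6 : n ≤ 8 * P := by omega
  calc n * n ≤ (2 * (n + 1 - h)) * (8 * P) := Nat.mul_le_mul h5 h6
    _ = 16 * s * ((n + 1 - h) * L) := by rw [hP]; ring
    _ ≤ 16 * s * M.worstTime n := Nat.mul_le_mul_left _ hT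

/-- Every one-tape machine that multiplies needs quadratic time. -/
theorem one_tape_quadratic (M : Machine 1) (hM : M.Multiplies) :
    ∃ c : ℝ, 0 < c ∧ ∃ N : ℕ, 2 ≤ N ∧ ∀ n : ℕ, N ≤ n →
      c * (n : ℝ) ^ 2 ≤ (M.worstTime n : ℝ) ∧ c * (n : ℝ) * Real.log n ≤ (M.worstTime n : ℝ) := by
  obtain ⟨κ, hκ, hmain⟩ := one_tape_nat M hM
  have hκR : (0 : ℝ) < 16 * κ := by
    have : (1 : ℝ) ≤ κ := by exact_mod_cast hκ
    linarith
  refine ⟨1 / (16 * κ), by positivity, max 18 (8 * κ), le_trans (by norm_num) (le_max_left _ _), ?_⟩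
  intro n hn
  have h18 : 18 ≤ n := le_trans (le_max_left _ _) hn
  have h8 : 8 * κ ≤ n := le_trans (le_max_right _ _) hn
  have h := hmain n h18 h8
  have hR : (n : ℝ) * n ≤ 16 * κ * (M.worstTime n : ℝ) := by exact_mod_cast h
  have hsq : 1 / (16 * (κ : ℝ)) * (n : ℝ) ^ 2 ≤ (M.worstTime n : ℝ) := by
    rw [div_mul_eq_mul_div, one_mul, div_le_iff₀ hκR]
    nlinarith
  refine ⟨hsq, le_trans ?_ hsq⟩
  have hn0 : (0 : ℝ) ≤ n := Nat.cast_nonneg n
  have hlog : Real.log n ≤ n := (Real.log_le_sub_one_of_pos (by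
    have : (18 : ℝ) ≤ n := by exact_mod_cast h18
    linarith)).trans (by linarith)
  have hc : (0 : ℝ) ≤ 1 / (16 * (κ : ℝ)) := by positivity
  calc 1 / (16 * (κ : ℝ)) * (n : ℝ) * Real.log n ≤ 1 / (16 * (κ : ℝ)) * (n : ℝ) * n :=
        mul_le_mul_of_nonneg_left hlog (mul_nonneg hc hn0)
    _ = 1 / (16 * (κ : ℝ)) * (n : ℝ) ^ 2 := by ring

end Vale.Agent.P338
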