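import Vale.Agent.P338.Arith

namespace Vale.Agent.P338

open OneTape

attribute [local instance] Machine.stateFin

/-- The string `w 0 ... 0` of length `n`. -/
def padRight {h : ℕ} (n : ℕ) (w : Fin h → Bool) : Fin n → Bool :=
  fun i => if hi : (i : ℕ) < h then w ⟨i, hi⟩ else false

theorem init_tape (M : Machine 1) (w : List M.Sym) : (M.init w).tape 0 = M.word w := by
  simp [Machine.init]

theorem card_bits (h : ℕ) : Fintype.card (Fin h → Bool) = 2 ^ h := by
  rw [Fintype.card_fun, Fintype.card_bool, Fintype.card_fin]

theorem le_worstTime (M : Machine 1) (n : ℕ) (x y : Fin n → Bool) :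
    M.time (M.init (M.input x y)) ≤ M.worstTime n := by
  unfold Machine.worstTime
  exact Finset.le_sup (f := fun p : (Fin n → Bool) × (Fin n → Bool) =>
    M.time (M.init (M.input p.1 p.2))) (Finset.mem_univ (x, y))

/-- Combinatorial core: for `h ≤ n` and `L` small, some input needs `(n + 1 - h) L` steps. -/
theorem worstTime_ge (M : Machine 1) (hM : M.Multiplies) (n h L : ℕ) (hn : 1 ≤ n) (hh : h ≤ n)
    (hL : (n + 1 - h) * (Fintype.card M.State + 1) ^ L < 2 ^ h) :
    (n + 1 - h) * L ≤ M.worstTime n := by
  classical
  choose t c' hc' using fun w : Fin h → Bool => hM n hn (topBit n) (padRight n w)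
  have hB : (Finset.Icc (h + 1) (n + 1)).card = n + 1 - h := by
    rw [Nat.card_Icc]; omega
  obtain ⟨w, hw⟩ := exists_slow (W := Fin h → Bool) (delta1 M) M.blank
    (fun w => toConf (M.init (M.input (topBit n) (padRight n w)))) t (fun w => toConf (c' w))
    (by
      intro w
      have h1 := run_toConf M (t w) (M.init (M.input (topBit n) (padRight n w)))
      rw [(hc' w).1.1] at h1
      exact h1.symm)
    (by
      intro w
      have h1 := step_toConf M (c' w)
      rw [(hc' w).1.2] at h1
      exact h1.symm)
    (Finset.Icc (h + 1) (n + 1))
    (by intro b hb; rw [Finset.mem_Icc] at hb; omega)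
    (by
      intro b hb w w' l
      rw [Finset.mem_Icc] at hb
      unfold proj toConf
      simp only [init_tape]
      congr 2
      funext j
      unfold mask
      by_cases hj : j < b
      · simp only [hj, if_true]
        by_cases hjn : j < n
        · rw [word_input_lt M _ _ j hjn, word_input_lt M _ _ j hjn]
        · have : j = n := by omega
          subst this
          rw [word_input_eq, word_input_eq]
      · simp only [hj, if_false])
    (by
      intro b hb w w' hmask
      rw [Finset.mem_Icc] at hb
      funext i
      have hi := i.isLt
      have h1 := congrFun hmask (1 + (i : ℕ))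
      unfold mask toConf at h1
      have hlt : 1 + (i : ℕ) < b := by omega
      simp only [hlt, if_true] at h1
      have hout : M.out = 0 := Subsingleton.elim _ _
      have e1 := (hc' w).2
      have e2 := (hc' w').2
      rw [hout] at e1 e2
      rw [e1, e2, word_ofFn M _ _ (by omega), word_ofFn M _ _ (by omega)] at h1
      have h2 := M.bit_injective h1
      rw [bin_shift hn (padRight n w) ⟨i, by omega⟩ (by simp only; omega),
        bin_shift hn (padRight n w') ⟨i, by omega⟩ (by simp only; omega)] at h2
      simpa [padRight, hi] using h2)
    L
    (by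
      rw [hB, card_bits]
      exact hL)
  rw [hB] at hw
  calc (n + 1 - h) * L ≤ t w := hw
    _ = M.time (M.init (M.input (topBit n) (padRight n w))) := (time_eq M (hc' w).1).symm
    _ ≤ M.worstTime n := le_worstTime M n _ _

end Vale.Agent.P338
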